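import Vale.Agent.P355.MSix

/-! At most five mutually unbiased bases exist in dimension six. -/

namespace Vale.Agent.Results.P355.B_le5

theorem result (n : ℕ) (B : Fin n → OrthonormalBasis (Fin 6) ℂ (EuclideanSpace ℂ (Fin 6)))
    (hB : ∀ k l, k ≠ l → ∀ i j, ‖inner ℂ (B k i) (B l j)‖ ^ 2 = 1 / 6) : n ≤ 5 := by
  by_contra hn
  have h6 : 6 ≤ n := by omega
  exact Vale.Agent.P355.no_six (fun k => B (Fin.castLE h6 k))
    fun k l hkl => hB _ _ fun h => hkl (Fin.castLE_injective h6 h)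

end Vale.Agent.Results.P355.B_le5
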