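import Vale.Agent.P355.MSeven

/-! No complete set of mutually unbiased bases exists in dimension six. -/

namespace Vale.Agent.Results.P355.C_no7

theorem result : ¬ ∃ B : Fin 7 → OrthonormalBasis (Fin 6) ℂ (EuclideanSpace ℂ (Fin 6)),
    ∀ k l, k ≠ l → ∀ i j, ‖inner ℂ (B k i) (B l j)‖ ^ 2 = 1 / 6 :=
  fun ⟨B, hB⟩ => Vale.Agent.P355.no_seven B hB

end Vale.Agent.Results.P355.C_no7
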